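import Vale.Agent.P210G.Grad
import Vale.Agent.P366D.Base
import Vale.Agent.P210U.Sta

/-!
# P210K: dimension one
-/

open MeasureTheory Filter Topology Set
open scoped ContDiff
open Vale.Agent.P366M Vale.Agent.P210G

noncomputable section

namespace Vale.Agent.P210K

variable {M : Type} [Mf0 1 M] {g : Fld 1 M} {U : Set M}

/-- the spectral bound with a positive potential is impossible on a closed curve -/
theorem base_spec (hg : Met g) {P : M → ℝ} {a : ℝ} (hP : Continuous P) (hU : IsOpen U)
    (hK : IsCompact U) (h : Spec g P a U) (h0 : ∀ x ∈ U, 0 < P x) : U = ∅ := by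
  refine eq_empty_of_forall_notMem fun p hp => ?_
  have := hg.locFin
  have := hg.openPos
  let ζ : M → ℝ := U.indicator fun _ => 1
  have e : ∀ x, ζ =ᶠ[𝓝 x] fun _ => ζ x := fun x => by
    by_cases hx : x ∈ U
    · filter_upwards [hU.mem_nhds hx] with y hy
      simp only [ζ, indicator_of_mem hx, indicator_of_mem hy]
    · filter_upwards [hK.isClosed.isOpen_compl.mem_nhds hx] with y hy
      simp only [ζ, indicator_of_notMem hx, indicator_of_notMem hy]
  have s : Smooth ζ := cd_of_cAt le_rfl fun x => cAt_const.congr_of_eventuallyEq (e x)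
  have t : tsupport ζ ⊆ U := closure_minimal support_indicator_subset hK.isClosed
  have c : HasCompactSupport ζ := hK.of_isClosed_subset (isClosed_tsupport _) t
  have h1 := h ζ s c t
  have h2 : ∀ x, a * ip g ζ ζ x + (scal g x - P x) * ζ x ^ 2 = -(P x * ζ x ^ 2) := fun x => by
    rw [ip_congr (e x) .rfl, ip_const_left, P366D.scal_one]
    ring
  simp only [h2, integral_neg] at h1
  have h3 := (hP.mul (s.cont.pow 2)).integral_pos_of_hasCompactSupport_nonneg_nonzero (μ := vol g)
    (Gr.supp_mul_left (Gr.supp_sq c)) (x := p) (fun x => by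
      by_cases hx : x ∈ U
      · exact mul_nonneg (h0 x hx).le (sq_nonneg _)
      · simp [ζ, hx]) (by simpa [ζ, hp] using (h0 p hp).ne')
  exact absurd h3 (not_lt.2 (neg_nonneg.1 h1))

/-- **a closed curve carries no state of positive curvature** -/
theorem base_empty (hg : Met g) {v : Fin 1 → M → ℝ} (hv : CC ∞ v) (hU : IsOpen U)
    (hK : IsCompact U) (h0 : ∀ x ∈ U, 0 < Rv g v x) : U = ∅ :=
  base_spec hg (sm_Rv hg hv).cont hU hK
    (spec_of_Rv (θ := 0) hg hv (sm_Rv hg hv).cont (by norm_num) fun x _ => by simp) h0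

/-- the radial lemma in dimension one -/
theorem ble_zero : P210U.BLE 0 := by
  refine ⟨1, le_rfl, 1, one_pos, fun a ha η _ => ⟨1, one_pos, fun ε _ _ M _ g v l G U ok hG hU hK h =>
    ?_⟩⟩
  have n0 : ∀ x, P210U.nsq G x ≤ 4 := fun x => by simp [P210U.nsq]
  obtain rfl : U = ∅ := base_empty ok.met ok.cc hU (by simpa [n0] using hK) fun x hx =>
    pos_of_mul_pos_right (ha.trans_le (h x hx (n0 x)).1) (sq_nonneg _)
  exact ⟨g, v, l, G, ok, hG, fun _ _ => ⟨rfl, fun _ => rfl, rfl⟩, fun _ _ _ => rfl,
    fun _ h => h.elim, fun _ h => h.elim⟩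

end Vale.Agent.P210K
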