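import Vale.Agent.P210K.Tr
import Vale.Agent.P210E.Chain

/-!
# P210K: chains are pushed down from a closed extension; `MOVEc → MOVE`
-/

open Filter Topology Set
open scoped ContDiff
open Vale.Agent.P366M Vale.Agent.P366M.Gr Vale.Agent.P366M.Y.C Vale.Agent.P366M.Y.C.GbH
open Vale.Agent.P366D (Sec SmM IsoM pull)
open Vale.Agent.P210G Vale.Agent.P210U Vale.Agent.P210E

noncomputable section

namespace Vale.Agent.P210K

variable {n : ℕ} {M Z : Type} [Mf0 n M] [Mf0 n Z] {g : Fld n M} {g' : Fld n Z}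
  {v : Fin n → M → ℝ} {π : Z → M} {σ : M → Z} {V K : Set M} {P : M → ℝ} {P' : Z → ℝ}
  {K' : Set Z} {a b : St n Z}

/-- a state on the extension, pushed down -/
def dS (V : Set M) (π : Z → M) (σ : M → Z) (g : Fld n M) (g' : Fld n Z) (v : Fin n → M → ℝ)
    (a : St n Z) : St n M := (dT V σ g g' a.1, dC V π σ v a.2)

theorem dS_self : dS V π σ g g' v (g', pullC π v) = (g, v) :=
  Prod.ext (dT_self V σ g g') (dC_self V π σ v)

theorem dS_mix (s : ℝ) :
    dS V π σ g g' v (mix s a b) = mix s (dS V π σ g g' v a) (dS V π σ g g' v b) :=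
  Prod.ext (dT_comb V σ g g' a.1 b.1 s) (dC_comb V π σ v a.2 b.2 s)

section

variable (hK' : ∀ y ∈ V, σ y ∈ K' → y ∈ K)
include hK'

theorem same_dS (e : Same K' (g', pullC π v) a) : Same K (g, v) (dS V π σ g g' v a) :=
  fun _ hx => ⟨(dT_off (fun y p q => (e _ fun r => q (hK' y p r)).1.symm) hx).symm, fun i =>
    (dC_off (fun y p q j => ((e _ fun r => q (hK' y p r)).2 j).symm) hx i).symm⟩

variable (h : Sec π σ g g' V) (hK : IsClosed K) (hKV : K ⊆ V) (hg : Met g) (hg' : Met g')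
  (hv : CC ∞ v) (hP : ∀ y ∈ K, σ y ∈ K' ∧ P y ≤ P' (σ y))
include h hK hKV hg hg' hv hP

theorem val_dS (e : Same K' (g', pullC π v) a) (ha : Val g' K' P' a) :
    Val g K P (dS V π σ g g' v a) := by
  have e1 : ∀ y ∈ V, y ∉ K → a.1 (σ y) = g' (σ y) := fun y p q =>
    (e _ fun r => q (hK' y p r)).1.symm
  refine ⟨met_dT h hK hKV hg hg' ha.met e1, cc_dC h hK hKV hv ha.cc fun y p q j =>
    ((e _ fun r => q (hK' y p r)).2 j).symm, fun x ξ => ?_, fun x hx => ?_⟩
  · have := dT_le h ha.up x ξ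
    rwa [dT_self] at this
  · exact ((hP x hx).2.trans (ha.le _ (hP x hx).1)).trans_eq
      (Rv_down h hK hKV hg hg' ha.met ha.cc e1 (hKV hx)).symm

/-- **a chain on the extension is pushed down** -/
theorem reach_dS (e : Same K' (g', pullC π v) a) (r : Reach g' K' P' a b) :
    Reach g K P (dS V π σ g g' v a) (dS V π σ g g' v b) := by
  induction r with
  | refl => exact .refl' _ _ _ _
  | tail r s ih =>
    have e1 := e.trans (Reach.same r)
    refine ih.trans (Seg.reach ⟨(same_dS hK' e1).symm.trans (same_dS hK' (e1.trans s.same)),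
      fun t ht => ?_⟩)
    rw [← dS_mix]
    exact val_dS hK' h hK hKV hg hg' hv hP (e1.trans (s.same.mix t)) (s.val t ht)

end

/-- a move on the extension is pushed down -/
theorem mv_down (s : Sec π σ g g' V) (hK : IsClosed K) (hKV : K ⊆ V) (hg : Met g) (hg' : Met g')
    (cv : CC ∞ v) {h : M → ℝ} (hh : Smooth h) {Bp Bm K₀ : Set M} (hp : IsClosed Bp)
    (hm : IsClosed Bm) (hd : Disjoint Bp Bm) (h0 : K₀ ⊆ K) (hc : K₀ᶜ ⊆ Bp ∪ Bm) {A η T α : ℝ}
    {w' : Z → ℝ} {v' : Fin n → Z → ℝ}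
    (m : Mv g' (pullC π v) (fun y => h (π y)) (π ⁻¹' Bp) (π ⁻¹' Bm) (π ⁻¹' K₀) (π ⁻¹' K) A η T α
      w' v') : ∃ w v₁, Mv g v h Bp Bm K₀ K A η T α w v₁ := by
  classical
  obtain ⟨cp, cm, c1, c2⟩ := m.cst
  have mem : ∀ {B : Set M}, ∀ y ∈ V, σ y ∈ π ⁻¹' B ↔ y ∈ B := fun y hy => by
    rw [mem_preimage, s.rt y hy]
  let w : M → ℝ := fun x => if x ∈ V then w' (σ x) else if x ∈ Bp then min cp (-T) else max cm T
  have w0 : ∀ x ∈ V, w x = w' (σ x) := fun x hx => if_pos hx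
  have wV : ∀ x ∈ V, w =ᶠ[𝓝 x] fun y => w' (σ y) := fun x hx =>
    eventually_of_mem (s.opn.mem_nhds hx) w0
  have wp : ∀ x ∈ Bp, x ∉ K → w x = min cp (-T) := fun x a b => by
    by_cases hx : x ∈ V
    · have q := c1 _ ((mem x hx).2 a) fun r => b ((mem x hx).1 r)
      rw [w0 x hx, min_eq_left (q ▸ m.lo _ ((mem x hx).2 a)), q]
    · simp only [w, if_neg hx, if_pos a]
  have wm : ∀ x ∈ Bm, x ∉ K → w x = max cm T := fun x a b => by
    by_cases hx : x ∈ V
    · have q := c2 _ ((mem x hx).2 a) fun r => b ((mem x hx).1 r)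
      rw [w0 x hx, max_eq_left (q ▸ m.hi _ ((mem x hx).2 a)), q]
    · simp only [w, if_neg hx, if_neg (disjoint_right.1 hd a)]
  have wK : ∀ x ∉ K, ∃ c, w =ᶠ[𝓝 x] fun _ => c := fun x hx => by
    rcases hc fun q => hx (h0 q) with q | q
    · refine ⟨min cp (-T), ?_⟩
      filter_upwards [hK.isOpen_compl.mem_nhds hx,
        hm.isOpen_compl.mem_nhds (disjoint_left.1 hd q)] with y a b
      exact wp y ((hc fun r => a (h0 r)).resolve_right b) a
    · refine ⟨max cm T, ?_⟩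
      filter_upwards [hK.isOpen_compl.mem_nhds hx,
        hp.isOpen_compl.mem_nhds (disjoint_right.1 hd q)] with y a b
      exact wm y ((hc fun r => a (h0 r)).resolve_left b) a
  have sw : Smooth w := cd_of_cAt le_rfl fun x => by
    by_cases hx : x ∈ V
    · exact ((s.sms x hx).cAt le_rfl m.smw.contDiffAt).congr_of_eventuallyEq (wV x hx)
    · obtain ⟨c, e⟩ := wK x fun q => hx (hKV q)
      exact cAt_const.congr_of_eventuallyEq e
  have i : ∀ x ∈ V, IsoM σ g' g x := fun x hx => iso_sec s hx (s.iso x hx)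
  have ev : ∀ x ∈ V, ∀ j, v j =ᶠ[𝓝 x] pullC σ (pullC π v) j := fun x hx j =>
    eventually_of_mem (s.opn.mem_nhds hx) fun y hy => by
      rw [pullC_pullC (s.sm _) (s.sms y hy), pullC_of_id (rt_ev s hy)]
  have cv' : CC ∞ (pullC π v) := cv.pull le_rfl s.sm
  have eP : ∀ x ∈ V, Rv g v x = Rv g' (pullC π v) (σ x) ∧ h x = h (π (σ x)) ∧
      gn g h x = gn g' (fun y => h (π y)) (σ x) := fun x hx =>
    ⟨Rv_eq' (i x hx) cv' (ev x hx), by rw [s.rt x hx],
      (i x hx).gn ((P366D.smooth_comp s.sm hh).diff _)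
        ((rt_ev s hx).mono fun y hy => congrArg h hy.symm)⟩
  have eH : ∀ x ∈ V, hv g v w x = hv g' (pullC π v) w' (σ x) := fun x hx =>
    hv_eq (i x hx) (fun j => (ev x hx j).self_of_nhds) m.smw (wV x hx)
  have sm := m.rch.same
  have hK' : ∀ y ∈ V, σ y ∈ π ⁻¹' K → y ∈ K := fun y hy => (mem y hy).1
  have e : dS V π σ g g' v (gb g' 1 w', v') = (gb g 1 w, dC V π σ v v') := by
    refine Prod.ext (funext fun x => ?_) rfl
    by_cases hx : x ∈ V
    · exact (dT_on s hx).trans (iso_gb (i x hx) m.smw sw (wV x hx)).eq.self_of_nhds.symm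
    · obtain ⟨c, e⟩ := wK x fun q => hx (hKV q)
      refine ((same_dS hK' sm x fun q => hx (hKV q)).1.symm).trans ?_
      funext a b
      simp only [gb, pd_congr e, pd_const, mul_zero, add_zero]
  have hP : ∀ y ∈ K, σ y ∈ π ⁻¹' K ∧ min (Rv g v y) (Rv g v y + h y ^ 2 - 2 * gn g h y) - η ≤
      min (Rv g' (pullC π v) (σ y)) (Rv g' (pullC π v) (σ y) + h (π (σ y)) ^ 2 -
        2 * gn g' (fun y => h (π y)) (σ y)) - η := fun y hy => by
    obtain ⟨a, b, c⟩ := eP y (hKV hy)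
    exact ⟨(mem y (hKV hy)).2 hy, by rw [← a, ← b, ← c]⟩
  have r := reach_dS hK' s hK hKV hg hg' cv hP (.rfl' _ _) m.rch
  have l := val_dS hK' s hK hKV hg hg' cv hP sm m.val
  rw [e] at l
  rw [e, dS_self] at r
  have m0 : ∀ x ∈ K₀, σ x ∈ π ⁻¹' K₀ := fun x hx => (mem x (hKV (h0 hx))).2 hx
  refine ⟨w, dC V π σ v v', sw, r, l, fun x hx => ?_, fun x hx => ?_, ⟨_, _, wp, wm⟩,
    fun x hx j => ?_, fun x hx => ?_, fun x hx q => ?_, fun x hx q => ?_⟩
  · by_cases k : x ∈ V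
    · exact (w0 x k).trans_le (m.lo _ ((mem x k).2 hx))
    · exact (wp x hx fun q => k (hKV q)).trans_le (min_le_right _ _)
  · by_cases k : x ∈ V
    · exact (m.hi _ ((mem x k).2 hx)).trans_eq (w0 x k).symm
    · exact (le_max_right _ _).trans_eq (wm x hx fun q => k (hKV q)).symm
  · have k := hKV (h0 hx)
    refine (dC_ev s k j).trans (EventuallyEq.trans ?_
      (vg_ev (i x k) (ev x k) m.smw (wV x k) j).symm)
    filter_upwards [(s.sms x k).ct.eventually (eventually_all.2 (m.same _ (m0 x hx)))] with y hy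
    simp only [pullC, hy]
  · rw [eH x (hKV (h0 hx))]
    exact m.bd _ (m0 x hx)
  · have k := hKV (h0 hx)
    rw [eH x k, (eP x k).2.1, w0 x k]
    exact m.eq _ (m0 x hx) (w0 x k ▸ q)
  · have k := hKV (h0 hx)
    obtain ⟨a, b, c⟩ := eP x k
    rw [a, c, Rv_eq' (iso_gb (i x k) m.smw sw (wV x k)) m.val.cc (dC_ev s k), b]
    exact m.gain _ (m0 x hx) (by rwa [← w0 x k, ← b])

/-- **graph moves on arbitrary manifolds** -/
theorem move_of (H : MOVEc n) : MOVE n := by
  intro M _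
  rcases isEmpty_or_nonempty M with hM | ⟨⟨p⟩⟩
  · exact H M
  intro g v Np Nm Bp Bm K₀ K hg cv oNp oNm cBp cBm sp sm cK cK₀ h0 hc
  obtain ⟨X, _, _, π, σ, V, a, -, s⟩ := P210L.closeup hg (cK.insert p) isOpen_univ (subset_univ _)
    (insert_nonempty _ _)
  have cπ : Continuous π := continuous_iff_continuousAt.2 fun x => (s.sm x).ct
  obtain ⟨A₀, H⟩ := H X bg (pullC π v) _ _ _ _ _ _ bg_met (cv.pull le_rfl s.sm) (oNp.preimage cπ)
    (oNm.preimage cπ) (cBp.preimage cπ) (cBm.preimage cπ) (preimage_mono sp) (preimage_mono sm)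
    (cK.isClosed.preimage cπ).isCompact (cK₀.preimage cπ)
    ((preimage_mono h0).trans (preimage_interior_subset_interior_preimage cπ)) fun x hx => hc hx
  refine ⟨max A₀ 1, fun A hA h hh b1 b2 b3 η η0 T T0 => ?_⟩
  obtain ⟨α, α0, αT, w', v', m⟩ := H A (le_of_max_le_left hA) _ (P366D.smooth_comp s.sm hh)
    (fun x => b1 _) (fun x hx => b2 _ hx) (fun x hx => b3 _ hx) η η0 T T0
  refine ⟨α, α0, αT, mv_down s cK.isClosed ((subset_insert _ _).trans a) hg bg_met cv hh cBp cBm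
    (disjoint_left.2 fun x p q => ?_) (h0.trans interior_subset) hc m⟩
  have := (b2 x (sp p)).symm.trans (b3 x (sm q))
  linarith [le_of_max_le_right hA]

end Vale.Agent.P210K
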