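import Vale.Agent.P210G.Gid
import Vale.Agent.P210L.Lbar

/-!
# P210K: transport of states along local isometries and to closed extensions
-/

open Filter Topology Set Matrix
open scoped ContDiff
open Vale.Agent.P366M Vale.Agent.P366M.Gr Vale.Agent.P366M.Y.C Vale.Agent.P366M.Y.C.GbH
open Vale.Agent.P366D (Sec SmM IsoM pull jm pull_apply pull_pull pull_congr pull_id cd_rep_pull)
open Vale.Agent.P210G

noncomputable section

namespace Vale.Agent.P210K

variable {n : ℕ} {M Z : Type} [Mf0 n M] [Mf0 n Z] {Φ : Z → M} {x : Z} {g : Fld n M} {g' : Fld n Z}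
  {v a b X : Fin n → M → ℝ} {v' a' b' X' : Fin n → Z → ℝ} {u w : M → ℝ} {u' w' : Z → ℝ}

/-! ### local isometries -/

section iso

variable (h : IsoM Φ g g' x)
include h

theorem ev_eq (ea : ∀ i, a' i x = pullC Φ a i x) (eX : ∀ i, X' i x = pullV Φ X i x) :
    ev a' X' x = ev a X (Φ x) := by
  have h1 : ev a' X' x = ((jm Φ x)ᵀ *ᵥ fun i => a i (Φ x)) ⬝ᵥ ((jm Φ x)⁻¹ *ᵥ fun i => X i (Φ x)) := by
    simp only [ev, ea, eX]
    rfl
  rw [h1, mulVec_transpose, ← dotProduct_mulVec, mulVec_mulVec, mul_nonsing_inv _ h.unit, one_mulVec]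
  rfl

theorem sh_eq (ea : ∀ i, a' i x = pullC Φ a i x) (i : Fin n) :
    sh g' a' i x = pullV Φ (sh g a) i x := by
  have h1 : (fun i => sh g' a' i x) = (mat g' x)⁻¹ *ᵥ ((jm Φ x)ᵀ *ᵥ fun i => a i (Φ x)) := by
    simp only [sh, ea]
    rfl
  have h2 : (fun i => pullV Φ (sh g a) i x) =
      (jm Φ x)⁻¹ *ᵥ ((mat g (Φ x))⁻¹ *ᵥ fun i => a i (Φ x)) := rfl
  refine congrFun (h1.trans (Eq.trans ?_ h2.symm)) i
  rw [h.mat_eq, mulVec_mulVec, mulVec_mulVec, Matrix.mul_inv_rev, Matrix.mul_inv_rev,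
    Matrix.mul_assoc, Matrix.mul_assoc, nonsing_inv_mul _ (by rw [det_transpose]; exact h.unit),
    Matrix.mul_one]

theorem iv_eq (ea : ∀ i, a' i x = pullC Φ a i x) (eb : ∀ i, b' i x = pullC Φ b i x) :
    iv g' a' b' x = iv g a b (Φ x) := by
  rw [iv_eq_ev, iv_eq_ev, ev_eq h ea (sh_eq h eb)]

theorem sh_ev (ea : ∀ i, a' i =ᶠ[𝓝 x] pullC Φ a i) (i : Fin n) :
    sh g' a' i =ᶠ[𝓝 x] pullV Φ (sh g a) i := by
  filter_upwards [h.ev, eventually_all.2 ea] with z h1 h2 using sh_eq h1 h2 i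

theorem Dv_eq (ev' : ∀ i, v' i x = pullC Φ v i x) (hX : DV X (Φ x))
    (eX : ∀ i, X' i =ᶠ[𝓝 x] pullV Φ X i) : Dv g' v' X' x = Dv g v X (Φ x) := by
  rw [Dv, Dv, h.dv_eq hX eX, ev_eq h ev' fun i => (eX i).self_of_nhds]

theorem Rv_eq' (hv : CC ∞ v) (ev' : ∀ i, v' i =ᶠ[𝓝 x] pullC Φ v i) :
    Rv g' v' x = Rv g v (Φ x) := by
  rw [Rv, Rv, h.scal, h.dv_eq (dV_sh h.m hv _) (sh_ev h ev'),
    iv_eq h (fun i => (ev' i).self_of_nhds) fun i => (ev' i).self_of_nhds]

theorem df_eq (hu : DAt u (Φ x)) (eu : u' =ᶠ[𝓝 x] fun z => u (Φ z)) (i : Fin n) :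
    df u' i x = pullC Φ (df u) i x := (pd_congr eu i).trans (pullC_pd hu h.s i).symm

theorem Lv_eq (ev' : ∀ i, v' i x = pullC Φ v i x) (hu : CAt 2 u (Φ x))
    (eu : u' =ᶠ[𝓝 x] fun z => u (Φ z)) : Lv g' v' u' x = Lv g v u (Φ x) := by
  rw [Lv, Lv, h.lap hu eu, iv_eq h ev' (df_eq h (diff2 hu) eu)]

theorem ww_eq (hw : DAt w (Φ x)) (ew : w' =ᶠ[𝓝 x] fun z => w (Φ z)) :
    ww g' 1 w' x = ww g 1 w (Φ x) := by
  rw [ww, ww, h.ip hw hw ew ew]
  rfl

theorem nv_eq (hw : DAt w (Φ x)) (ew : w' =ᶠ[𝓝 x] fun z => w (Φ z)) (i : Fin n) :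
    nv g' w' i x = pullV Φ (nv g w) i x := by
  rw [nv, h.gr_eq hw ew, ww_eq h hw ew]
  simp only [pullV, nv, Finset.sum_div, mul_div_assoc]

theorem dn_eq' (hw : DAt w (Φ x)) (hu : DAt u (Φ x)) (ew : w' =ᶠ[𝓝 x] fun z => w (Φ z))
    (eu : u' =ᶠ[𝓝 x] fun z => u (Φ z)) : dn g' w' u' x = dn g w u (Φ x) := by
  rw [dn, dn, h.ip hw hu ew eu, ww_eq h hw ew]

theorem hv_eq (ev' : ∀ i, v' i x = pullC Φ v i x) (hw : Smooth w)
    (ew : w' =ᶠ[𝓝 x] fun z => w (Φ z)) : hv g' v' w' x = hv g v w (Φ x) := by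
  refine Dv_eq h ev' ((cv_nv h.m hw).dv (by simp) _) fun i => ?_
  filter_upwards [h.ev, ew.eventuallyEq_nhds] with z h1 h2 using nv_eq h1 (hw.diff _) h2 i

theorem lw_ev (hw : Smooth w) (ew : w' =ᶠ[𝓝 x] fun z => w (Φ z)) :
    lw g' w' =ᶠ[𝓝 x] fun z => lw g w (Φ z) := by
  filter_upwards [h.ev, ew.eventuallyEq_nhds] with z h1 h2
  rw [lw, lw, ww_eq h1 (hw.diff _) h2]

theorem vg_ev (ev' : ∀ i, v' i =ᶠ[𝓝 x] pullC Φ v i) (hw : Smooth w)
    (ew : w' =ᶠ[𝓝 x] fun z => w (Φ z)) (i : Fin n) :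
    vg g' v' w' i =ᶠ[𝓝 x] pullC Φ (vg g v w) i := by
  filter_upwards [h.ev, (lw_ev h hw ew).eventuallyEq_nhds, ev' i] with z h1 h2 h3
  have h4 := df_eq h1 ((sm_lw h.m hw).diff _) h2 i
  simp only [vg, pullC, df, mul_add, Finset.sum_add_distrib] at h3 h4 ⊢
  rw [h3, h4]

theorem iso_gb (hw : Smooth w) (hw' : Smooth w') (ew : w' =ᶠ[𝓝 x] fun z => w (Φ z)) :
    IsoM Φ (gb g 1 w) (gb g' 1 w') x := by
  refine ⟨h.sm, met_g h.m hw, met_g h.m' hw', ?_⟩
  filter_upwards [h.ev, ew.eventuallyEq_nhds] with z h1 h2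
  funext i j
  have h3 := df_eq h1 (hw.diff _) h2
  simp only [df, pullC] at h3
  simp only [gb, h1.eq.self_of_nhds, h3, pull_apply, Pi.one_apply, one_pow, one_mul, mul_add,
    Finset.sum_add_distrib, Finset.sum_mul_sum]
  congr 1
  exact Finset.sum_congr rfl fun _ _ => Finset.sum_congr rfl fun _ _ => by ring

end iso

theorem pullC_pullC {W : Type} [Mf0 n W] {ψ : W → Z} {y : W} (h : SmM Φ (ψ y)) (hψ : SmM ψ y)
    (a : Fin n → M → ℝ) (i : Fin n) :
    pullC ψ (pullC Φ a) i y = pullC (fun z => Φ (ψ z)) a i y := by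
  simp only [pullC, jm_comp h hψ, Matrix.mul_apply, Finset.mul_sum, Finset.sum_mul]
  rw [Finset.sum_comm]
  exact Finset.sum_congr rfl fun _ _ => Finset.sum_congr rfl fun _ _ => by ring

theorem pullC_of_id {ψ : M → M} {y : M} (e : ψ =ᶠ[𝓝 y] fun z => z) (a : Fin n → M → ℝ)
    (i : Fin n) : pullC ψ a i y = a i y := by
  simp [pullC, jm_congr e, jm_id, e.self_of_nhds, Matrix.one_apply]

theorem pull_of_id {ψ : M → M} {y : M} (e : ψ =ᶠ[𝓝 y] fun z => z) (T : Fld n M) :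
    pull ψ T y = T y := by rw [pull_congr e rfl, pull_id]

/-! ### extension by zero of pull-backs -/

/-- the pull-back of a tensor on `V`, extended by zero -/
def zT (V : Set Z) (Φ : Z → M) (T : Fld n M) : Fld n Z := V.indicator (pull Φ T)

/-- the pull-back of a one-form on `V`, extended by zero -/
def zC (V : Set Z) (Φ : Z → M) (a : Fin n → M → ℝ) : Fin n → Z → ℝ :=
  fun i => V.indicator (pullC Φ a i)

/-- the pull-back of a function on `V`, extended by zero -/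
def zF (V : Set Z) (Φ : Z → M) (u : M → ℝ) : Z → ℝ := V.indicator fun z => u (Φ z)

variable {V K : Set Z} {T : Fld n M}

theorem ind_ev {α : Type} [Zero α] (hV : IsOpen V) (hx : x ∈ V) (f : Z → α) :
    V.indicator f =ᶠ[𝓝 x] f := eventually_of_mem (hV.mem_nhds hx) fun _ k => indicator_of_mem k _

theorem ind_off {α : Type} [Zero α] {f : Z → α} (h0 : ∀ z ∈ V, z ∉ K → f z = 0) (hx : x ∉ K) :
    V.indicator f x = 0 := indicator_apply_eq_zero.2 fun k => h0 x k hx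

theorem ind_zero {α : Type} [Zero α] (hK : IsClosed K) {f : Z → α}
    (h0 : ∀ z ∈ V, z ∉ K → f z = 0) (hx : x ∉ K) : V.indicator f =ᶠ[𝓝 x] fun _ => 0 :=
  eventually_of_mem (hK.isOpen_compl.mem_nhds hx) fun _ k => ind_off h0 k

theorem pull_zero (h : T (Φ x) = 0) : pull Φ T x = 0 := by
  funext i j
  simp [pull_apply, h]

theorem pullC_zero (h : ∀ i, a i (Φ x) = 0) (i : Fin n) : pullC Φ a i x = 0 := by simp [pullC, h]

theorem zT_off (h0 : ∀ z ∈ V, z ∉ K → T (Φ z) = 0) (hx : x ∉ K) : zT V Φ T x = 0 :=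
  ind_off (fun z a b => pull_zero (h0 z a b)) hx

theorem zC_off (h0 : ∀ z ∈ V, z ∉ K → ∀ i, a i (Φ z) = 0) (hx : x ∉ K) (i : Fin n) :
    zC V Φ a i x = 0 := ind_off (fun z a b => pullC_zero (h0 z a b) i) hx

theorem zF_off (h0 : ∀ z ∈ V, z ∉ K → u (Φ z) = 0) (hx : x ∉ K) : zF V Φ u x = 0 := ind_off h0 hx

section sm

variable (hV : IsOpen V) (hΦ : ∀ z ∈ V, SmM Φ z) (hK : IsClosed K) (hKV : K ⊆ V)
include hV hΦ hK hKV

theorem smT_zT (hT : SmT T) (h0 : ∀ z ∈ V, z ∉ K → T (Φ z) = 0) : SmT (zT V Φ T) :=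
  smT_of fun x => ⟨_, ch_mem x, mem_ch x, fun i j => by
    by_cases hx : x ∈ V
    · refine (cd_rep_pull (ch_mem x) (y := pt x) ?_ hT i j).congr_of_eventuallyEq
        ((rep_congr_pt (ind_ev hV hx _)).mono fun z hz => congrFun (congrFun hz i) j)
      rw [symm_pt]
      exact eventually_of_mem (hV.mem_nhds hx) hΦ
    · refine (contDiffAt_const (c := (0 : ℝ))).congr_of_eventuallyEq
        ((rep_congr_pt (ind_zero hK (fun z a b => pull_zero (h0 z a b)) fun k => hx (hKV k))).mono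
          fun z hz => (congrFun (congrFun hz i) j).trans ?_)
      simp [rep]⟩

theorem cc_zC (ha : CC ∞ a) (h0 : ∀ z ∈ V, z ∉ K → ∀ i, a i (Φ z) = 0) : CC ∞ (zC V Φ a) :=
  cc_of le_rfl fun x => ⟨_, ch_mem x, mem_ch x, fun i => by
    by_cases hx : x ∈ V
    · have h0 : SmM Φ ((ch x).symm (pt x)) := by rw [symm_pt]; exact hΦ x hx
      have h1 := h0.cd (ch_mem x) (ch_mem _) (mem_ch _)
      refine (ContDiffAt.sum (s := Finset.univ) fun b _ => (cd_jac h1 b i).mul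
        ((ha _ (ch_mem (Φ ((ch x).symm (pt x)))) b).contDiffAt.comp _ h1)).congr_of_eventuallyEq ?_
      filter_upwards [P366D.ev_source (h0.lc (ch_mem x)).ct (mem_ch _),
        ev_pt.1 (hV.mem_nhds hx)] with z h2 h3
      refine Eq.trans ?_ (repC_pull (ch_mem x) (ch_mem _) (hΦ _ h3) h2 a i)
      simp only [repC, zC, indicator_of_mem h3]
    · refine (contDiffAt_const (c := (0 : ℝ))).congr_of_eventuallyEq ?_
      filter_upwards [ev_pt.1 (hK.isOpen_compl.mem_nhds fun k => hx (hKV k))] with z hz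
      simp [repC, zC_off h0 hz]⟩

theorem sm_zF (hu : Smooth u) (h0 : ∀ z ∈ V, z ∉ K → u (Φ z) = 0) : Smooth (zF V Φ u) :=
  cd_of_cAt le_rfl fun x => by
    by_cases hx : x ∈ V
    · exact ((hΦ x hx).cAt le_rfl hu.contDiffAt).congr_of_eventuallyEq (ind_ev hV hx _)
    · exact cAt_const.congr_of_eventuallyEq (ind_zero hK h0 fun k => hx (hKV k))

end sm

section cut

variable {χ : Z → ℝ} (hV : IsOpen V) (hΦ : ∀ z ∈ V, SmM Φ z) (hχ : Smooth χ) (hs : tsupport χ ⊆ V)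
include hV hΦ hχ hs

/-- a cut-off pull-back of a tensor -/
theorem smT_cut (hT : SmT T) : SmT fun x i j => χ x * pull Φ T x i j :=
  smT_of fun x => ⟨_, ch_mem x, mem_ch x, fun i j => by
    by_cases hx : x ∈ V
    · have h1 := cd_rep_pull (ch_mem x) (y := pt x)
        (by rw [symm_pt]; exact eventually_of_mem (hV.mem_nhds hx) hΦ) hT i j
      refine (ContDiffAt.mul hχ.contDiffAt h1).congr_of_eventuallyEq (.of_forall fun z => ?_)
      simp only [rep, loc, Finset.mul_sum, mul_left_comm]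
    · refine (contDiffAt_const (c := (0 : ℝ))).congr_of_eventuallyEq ?_
      filter_upwards [ev_pt.1 (notMem_tsupport_iff_eventuallyEq.1 fun k => hx (hs k))] with z hz
      simp [rep, hz]⟩

theorem cc_cut (ha : CC ∞ a) : CC ∞ fun i x => χ x * pullC Φ a i x :=
  cc_of le_rfl fun x => ⟨_, ch_mem x, mem_ch x, fun i => by
    by_cases hx : x ∈ V
    · have h0 : SmM Φ ((ch x).symm (pt x)) := by rw [symm_pt]; exact hΦ x hx
      have h1 := h0.cd (ch_mem x) (ch_mem _) (mem_ch _)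
      refine (ContDiffAt.mul hχ.contDiffAt (ContDiffAt.sum (s := Finset.univ) fun b _ =>
        (cd_jac h1 b i).mul ((ha _ (ch_mem (Φ ((ch x).symm (pt x)))) b).contDiffAt.comp _
          h1))).congr_of_eventuallyEq ?_
      filter_upwards [P366D.ev_source (h0.lc (ch_mem x)).ct (mem_ch _),
        ev_pt.1 (hV.mem_nhds hx)] with z h2 h3
      refine Eq.trans ?_ (congrArg _ (repC_pull (ch_mem x) (ch_mem _) (hΦ _ h3) h2 a i))
      simp only [repC, loc, Finset.mul_sum, mul_left_comm]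
    · refine (contDiffAt_const (c := (0 : ℝ))).congr_of_eventuallyEq ?_
      filter_upwards [ev_pt.1 (notMem_tsupport_iff_eventuallyEq.1 fun k => hx (hs k))] with z hz
      simp [repC, hz]⟩

omit hV in
theorem sm_cut (hu : Smooth u) : Smooth fun x => χ x * u (Φ x) :=
  cd_of_cAt le_rfl fun x => by
    by_cases hx : x ∈ V
    · exact ContDiffAt.mul hχ.contDiffAt ((hΦ x hx).cAt le_rfl hu.contDiffAt)
    · refine (cAt_const (c := (0 : ℝ))).congr_of_eventuallyEq ?_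
      filter_upwards [notMem_tsupport_iff_eventuallyEq.1 fun k => hx (hs k)] with z hz
      simp [hz]

end cut

/-- the quadratic form of a pull-back -/
theorem quad_pull (Φ : Z → M) (T : Fld n M) (x : Z) (ξ : Fin n → ℝ) :
    ∑ i, ∑ j, pull Φ T x i j * ξ i * ξ j =
      ∑ a, ∑ b, T (Φ x) a b * (jm Φ x *ᵥ ξ) a * (jm Φ x *ᵥ ξ) b := by
  simp only [pull_apply, mulVec, dotProduct, Finset.sum_mul, Finset.mul_sum]
  rw [Finset.sum_congr rfl fun i _ => Finset.sum_comm, Finset.sum_comm]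
  refine Finset.sum_congr rfl fun a _ => ?_
  rw [Finset.sum_congr rfl fun i _ => Finset.sum_comm, Finset.sum_comm]
  refine Finset.sum_congr rfl fun b _ => Finset.sum_comm.trans ?_
  exact Finset.sum_congr rfl fun _ _ => Finset.sum_congr rfl fun _ _ => by ring

/-! ### sections -/

section sec

variable {π : Z → M} {σ : M → Z} {V K : Set M} {z : M} (h : Sec π σ g g' V)
include h

theorem tendsto_pi (hz : z ∈ V) : Tendsto π (𝓝 (σ z)) (𝓝 z) := by
  have := (h.sm (σ z)).ct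
  rwa [ContinuousAt, h.rt z hz] at this

theorem rt_ev (hz : z ∈ V) : (fun y => π (σ y)) =ᶠ[𝓝 z] fun y => y :=
  eventually_of_mem (h.opn.mem_nhds hz) h.rt

/-- the section is a local isometry as well -/
theorem iso_sec {g₁ : Fld n M} {g₁' : Fld n Z} (hz : z ∈ V) (i : IsoM π g₁ g₁' (σ z)) :
    IsoM σ g₁' g₁ z := by
  refine ⟨eventually_of_mem (h.opn.mem_nhds hz) h.sms, i.m', i.m, ?_⟩
  filter_upwards [h.opn.mem_nhds hz, (h.sms z hz).ct.eventually i.eq] with y h1 h2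
  rw [pull_congr (Ψ := σ) (S := pull π g₁) .rfl h2, pull_pull (h.sm _) (h.sms y h1),
    pull_of_id (rt_ev h h1)]

theorem pull_zT (hz : z ∈ V) (T : Fld n Z) : pull π (zT V σ T) =ᶠ[𝓝 (σ z)] T := by
  filter_upwards [(h.lf z hz).eventually_nhds, (tendsto_pi h hz).eventually (h.opn.mem_nhds hz)]
    with y h1 h2
  rw [pull_congr (Ψ := π) (T := zT V σ T) (S := pull σ T) .rfl (indicator_of_mem h2 _),
    pull_pull (h.sms _ h2) (h.sm y), pull_of_id h1]

theorem pullC_zC (hz : z ∈ V) (a : Fin n → Z → ℝ) (i : Fin n) :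
    pullC π (zC V σ a) i =ᶠ[𝓝 (σ z)] a i := by
  filter_upwards [(h.lf z hz).eventually_nhds, (tendsto_pi h hz).eventually (h.opn.mem_nhds hz)]
    with y h1 h2
  rw [← pullC_of_id h1 a i, ← pullC_pullC (h.sms _ h2) (h.sm y)]
  simp only [pullC, zC, indicator_of_mem h2]

theorem zF_pi (hz : z ∈ V) (u : Z → ℝ) : (fun y => zF V σ u (π y)) =ᶠ[𝓝 (σ z)] u := by
  filter_upwards [h.lf z hz, (tendsto_pi h hz).eventually (h.opn.mem_nhds hz)] with y h1 h2
  rw [zF, indicator_of_mem h2, h1]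

theorem notMem_img (hKV : K ⊆ V) (hz : z ∈ V) (hz' : z ∉ K) : σ z ∉ σ '' K := by
  rintro ⟨y, h1, h2⟩
  exact hz' (by rw [← h.rt z hz, ← h2, h.rt y (hKV h1)]; exact h1)

theorem cpt_img (hK : IsCompact K) (hKV : K ⊆ V) : IsCompact (σ '' K) :=
  hK.image_of_continuousOn (h.contOn.mono hKV)

end sec

/-- a metric on the extension, pushed down -/
def dT (V : Set M) (σ : M → Z) (g : Fld n M) (g' g₁' : Fld n Z) : Fld n M := fun x i j =>
  g x i j + zT V σ (fun y i j => g₁' y i j - g' y i j) x i j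

/-- a one-form on the extension, pushed down -/
def dC (V : Set M) (π : Z → M) (σ : M → Z) (v : Fin n → M → ℝ) (v₁' : Fin n → Z → ℝ) :
    Fin n → M → ℝ := fun i x => v i x + zC V σ (fun i y => v₁' i y - pullC π v i y) i x

/-- a function on the extension, pushed down -/
def dF (V : Set M) (π : Z → M) (σ : M → Z) (u : M → ℝ) (u₁' : Z → ℝ) : M → ℝ :=
  fun x => u x + zF V σ (fun y => u₁' y - u (π y)) x

section down

variable {π : Z → M} {σ : M → Z} {V K : Set M} {z : M} {g₁' : Fld n Z} {v₁' : Fin n → Z → ℝ}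
  {u₁' : Z → ℝ}

theorem dT_off (e : ∀ y ∈ V, y ∉ K → g₁' (σ y) = g' (σ y)) (hz : z ∉ K) :
    dT V σ g g' g₁' z = g z := by
  have h0 := zT_off (V := V) (Φ := σ) (T := fun y i j => g₁' y i j - g' y i j)
    (fun y a b => by funext i j; simp [e y a b]) hz
  funext i j
  simp [dT, h0]

theorem dC_off (e : ∀ y ∈ V, y ∉ K → ∀ i, v₁' i (σ y) = pullC π v i (σ y)) (hz : z ∉ K)
    (i : Fin n) : dC V π σ v v₁' i z = v i z := by
  rw [dC, zC_off (K := K) (fun y a b i => by simp [e y a b]) hz, add_zero]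

theorem dF_off (e : ∀ y ∈ V, y ∉ K → u₁' (σ y) = u (π (σ y))) (hz : z ∉ K) :
    dF V π σ u u₁' z = u z := by
  rw [dF, zF_off (K := K) (fun y a b => by simp [e y a b]) hz, add_zero]

variable (h : Sec π σ g g' V)
include h

theorem dT_on (hz : z ∈ V) : dT V σ g g' g₁' z = pull σ g₁' z := by
  funext i j
  rw [dT, zT, indicator_of_mem hz, pull_sub, (iso_sec h hz (h.iso z hz)).eq.self_of_nhds]
  ring

theorem dC_on (hz : z ∈ V) (i : Fin n) : dC V π σ v v₁' i z = pullC σ v₁' i z := by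
  rw [dC, zC, indicator_of_mem hz, ← pullC_of_id (rt_ev h hz) v i,
    ← pullC_pullC (h.sm _) (h.sms z hz)]
  simp only [pullC, mul_sub, Finset.sum_sub_distrib]
  ring

theorem dF_on (hz : z ∈ V) : dF V π σ u u₁' z = u₁' (σ z) := by
  rw [dF, zF, indicator_of_mem hz, h.rt z hz]
  ring

theorem dC_ev (hz : z ∈ V) (i : Fin n) : dC V π σ v v₁' i =ᶠ[𝓝 z] pullC σ v₁' i :=
  eventually_of_mem (h.opn.mem_nhds hz) fun _ k => dC_on h k i

theorem dF_ev (hz : z ∈ V) : dF V π σ u u₁' =ᶠ[𝓝 z] fun y => u₁' (σ y) :=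
  eventually_of_mem (h.opn.mem_nhds hz) fun _ k => dF_on h k

variable (hK : IsClosed K) (hKV : K ⊆ V)
include hK hKV

theorem met_dT (hg : Met g) (hg' : Met g') (h₁ : Met g₁')
    (e : ∀ y ∈ V, y ∉ K → g₁' (σ y) = g' (σ y)) : Met (dT V σ g g' g₁') where
  sm := hg.sm.add (smT_zT h.opn h.sms hK hKV (h₁.sm.sub hg'.sm)
    fun y a b => by funext i j; simp [e y a b])
  sy x i j := by
    by_cases hx : x ∈ V
    · rw [dT_on h hx, P366D.pull_sy (h₁.sy _)]
    · rw [dT_off e fun k => hx (hKV k), hg.sy]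
  pos x := by
    by_cases hx : x ∈ V
    · rw [mat, dT_on h hx]
      exact pull_pos (h₁.pos _)
        (Matrix.mulVec_injective_of_isUnit ((Matrix.isUnit_iff_isUnit_det _).2
          (iso_sec h hx (h.iso x hx)).unit))
    · rw [mat, dT_off e fun k => hx (hKV k)]
      exact hg.pos x

theorem iso_dT (hg : Met g) (hg' : Met g') (h₁ : Met g₁')
    (e : ∀ y ∈ V, y ∉ K → g₁' (σ y) = g' (σ y)) (hz : z ∈ V) : IsoM σ g₁' (dT V σ g g' g₁') z :=
  ⟨eventually_of_mem (h.opn.mem_nhds hz) h.sms, h₁, met_dT h hK hKV hg hg' h₁ e,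
    eventually_of_mem (h.opn.mem_nhds hz) fun _ k => dT_on h k⟩

theorem cc_dC (hv : CC ∞ v) (h₁ : CC ∞ v₁')
    (e : ∀ y ∈ V, y ∉ K → ∀ i, v₁' i (σ y) = pullC π v i (σ y)) : CC ∞ (dC V π σ v v₁') :=
  hv.add (cc_zC h.opn h.sms hK hKV (h₁.sub (hv.pull le_rfl h.sm)) fun y a b i => by simp [e y a b])

theorem sm_dF (hu : Smooth u) (h₁ : Smooth u₁') (e : ∀ y ∈ V, y ∉ K → u₁' (σ y) = u (π (σ y))) :
    Smooth (dF V π σ u u₁') :=
  CD.add hu (sm_zF h.opn h.sms hK hKV (CD.sub h₁ (P366D.smooth_comp h.sm hu))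
    fun y a b => by simp [e y a b])

/-- the section is isometric for the new metrics -/
theorem sec_dT (hg : Met g) (hg' : Met g') (h₁ : Met g₁')
    (e : ∀ y ∈ V, y ∉ K → g₁' (σ y) = g' (σ y)) : Sec π σ (dT V σ g g' g₁') g₁' V := by
  refine ⟨h.opn, h.sm, h.rt, h.sms, fun z hz => ⟨.of_forall h.sm, met_dT h hK hKV hg hg' h₁ e, h₁,
    ?_⟩, h.lf⟩
  filter_upwards [(h.lf z hz).eventually_nhds, (tendsto_pi h hz).eventually (h.opn.mem_nhds hz)]
    with y h1 h2
  rw [pull_congr (Ψ := π) (S := pull σ g₁') .rfl (dT_on h h2), pull_pull (h.sms _ h2) (h.sm y),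
    pull_of_id h1]

omit hK hKV in
/-- monotonicity -/
theorem dT_le {g₂' : Fld n Z} (e : ∀ y (ξ : Fin n → ℝ), ∑ i, ∑ j, g₁' y i j * ξ i * ξ j ≤
    ∑ i, ∑ j, g₂' y i j * ξ i * ξ j) (x : M) (ξ : Fin n → ℝ) :
    ∑ i, ∑ j, dT V σ g g' g₁' x i j * ξ i * ξ j ≤ ∑ i, ∑ j, dT V σ g g' g₂' x i j * ξ i * ξ j := by
  by_cases hx : x ∈ V
  · rw [dT_on h hx, dT_on h hx, quad_pull, quad_pull]
    exact e _ _
  · simp only [dT, zT, indicator_of_notMem hx, le_refl]

/-- the curvature of the pushed down state -/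
theorem Rv_down (hg : Met g) (hg' : Met g') (h₁ : Met g₁') (h₂ : CC ∞ v₁')
    (e : ∀ y ∈ V, y ∉ K → g₁' (σ y) = g' (σ y)) (hz : z ∈ V) :
    Rv (dT V σ g g' g₁') (dC V π σ v v₁') z = Rv g₁' v₁' (σ z) :=
  Rv_eq' (iso_dT h hK hKV hg hg' h₁ e hz) h₂ (dC_ev h hz)

end down

theorem dT_self (V : Set M) (σ : M → Z) (g : Fld n M) (g' : Fld n Z) : dT V σ g g' g' = g := by
  funext x
  exact dT_off (K := ∅) (fun _ _ _ => rfl) (notMem_empty x)

theorem dC_self (V : Set M) (π : Z → M) (σ : M → Z) (v : Fin n → M → ℝ) :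
    dC V π σ v (pullC π v) = v := by
  funext i x
  exact dC_off (K := ∅) (fun _ _ _ _ => rfl) (notMem_empty x) i

theorem dF_self (V : Set M) (π : Z → M) (σ : M → Z) (u : M → ℝ) :
    dF V π σ u (fun y => u (π y)) = u := by
  funext x
  exact dF_off (K := ∅) (fun _ _ _ => rfl) (notMem_empty x)

/-- pushing down is compatible with affine combinations -/
theorem dT_comb (V : Set M) (σ : M → Z) (g : Fld n M) (g' p q : Fld n Z) (s : ℝ) :
    dT V σ g g' (fun y i j => (1 - s) * p y i j + s * q y i j) =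
      fun x i j => (1 - s) * dT V σ g g' p x i j + s * dT V σ g g' q x i j := by
  funext x i j
  by_cases hx : x ∈ V
  · simp only [dT, zT, indicator_of_mem hx, pull_apply]
    rw [mul_add, mul_add, Finset.mul_sum, Finset.mul_sum, add_add_add_comm, ← add_mul,
      sub_add_cancel, one_mul, ← Finset.sum_add_distrib]
    refine congrArg _ (Finset.sum_congr rfl fun a _ => ?_)
    rw [Finset.mul_sum, Finset.mul_sum, ← Finset.sum_add_distrib]
    exact Finset.sum_congr rfl fun b _ => by ring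
  · simp only [dT, zT, indicator_of_notMem hx, Pi.zero_apply]
    ring

theorem dC_comb (V : Set M) (π : Z → M) (σ : M → Z) (v : Fin n → M → ℝ) (p q : Fin n → Z → ℝ)
    (s : ℝ) : dC V π σ v (fun i y => (1 - s) * p i y + s * q i y) =
      fun i x => (1 - s) * dC V π σ v p i x + s * dC V π σ v q i x := by
  funext i x
  by_cases hx : x ∈ V
  · simp only [dC, zC, indicator_of_mem hx]
    rw [pullC, pullC, pullC, mul_add, mul_add, Finset.mul_sum, Finset.mul_sum, add_add_add_comm,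
      ← add_mul, sub_add_cancel, one_mul, ← Finset.sum_add_distrib]
    exact congrArg _ (Finset.sum_congr rfl fun a _ => by ring)
  · simp only [dC, zC, indicator_of_notMem hx]
    ring

theorem dF_comb (V : Set M) (π : Z → M) (σ : M → Z) (u : M → ℝ) (p q : Z → ℝ) (s : ℝ) :
    dF V π σ u (fun y => (1 - s) * p y + s * q y) =
      fun x => (1 - s) * dF V π σ u p x + s * dF V π σ u q x := by
  funext x
  by_cases hx : x ∈ V
  · simp only [dF, zF, indicator_of_mem hx]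
    ring
  · simp only [dF, zF, indicator_of_notMem hx]
    ring

end Vale.Agent.P210K
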