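import Vale.Agent.P210E.Chain
import Vale.Agent.P210Z.Fin

/-!
# P210K: the radial lemma for maps with more components
-/

open Filter Topology Set Real
open scoped ContDiff
open Vale.Agent.P366M Vale.Agent.P210G Vale.Agent.P210U Vale.Agent.P210E

noncomputable section

namespace Vale.Agent.P210K

/-- the radial lemma in dimension `k + 1` for maps with `q` components -/
def BLq (k q : ℕ) : Prop := ∃ C ≥ (1 : ℝ), ∃ c > (0 : ℝ), ∀ a > (0 : ℝ), ∀ η > (0 : ℝ),
  ∃ ε₀ > (0 : ℝ), ∀ ε, 0 < ε → ε ≤ ε₀ → ∀ (M : Type) [Mf0 (k + 1) M] (g : Fld (k + 1) M)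
  (v : Fin (k + 1) → M → ℝ) (l : M → ℝ) (G : Fin q → M → ℝ) (O : Set M), Bd g v l G O a ε →
  ∃ g' v' l' G', Out g v l G O (a - η) C c ε g' v' l' G'

/-- the radial profile -/
theorem exists_phi : ∃ φ : ℝ → ℝ, ∃ D ≥ (1 : ℝ), ContDiff ℝ ∞ φ ∧
    (∀ s, 1 / 8 ≤ φ s ∧ φ s ≤ 1 / 2 ∧ |deriv φ s| ≤ D ∧ min (s ^ 2) 1 ≤ (64 * φ s ^ 2 - 4) ^ 2) ∧
    ∀ s, |s| ≤ 1 → 64 * φ s ^ 2 = 4 + s := by
  set μ : ℝ → ℝ := fun t => t + (2 - t) * smoothTransition (t - 1) -
    (2 + t) * smoothTransition (-t - 1) with hμ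
  have s : ContDiff ℝ ∞ μ := by
    have := P366H.sm_st
    simp only [hμ]; fun_prop
  have m1 : ∀ t, 2 ≤ t → μ t = 2 := fun t h => by
    simp only [hμ]
    rw [smoothTransition.one_of_one_le (by linarith), smoothTransition.zero_of_nonpos (by linarith)]
    ring
  have m2 : ∀ t, t ≤ -2 → μ t = -2 := fun t h => by
    simp only [hμ]
    rw [smoothTransition.zero_of_nonpos (by linarith), smoothTransition.one_of_one_le (by linarith)]
    ring
  have m3 : ∀ t, |t| ≤ 2 → t ^ 2 ≤ μ t ^ 2 ∧ |μ t| ≤ 2 := fun t h => by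
    obtain ⟨h1, h2⟩ := abs_le.1 h
    have a1 := smoothTransition.nonneg (t - 1)
    have a2 := smoothTransition.le_one (t - 1)
    have a3 := smoothTransition.nonneg (-t - 1)
    have a4 := smoothTransition.le_one (-t - 1)
    simp only [hμ]
    rcases le_total 0 t with k | k
    · rw [smoothTransition.zero_of_nonpos (x := -t - 1) (by linarith)]
      have := mul_nonneg (sub_nonneg.2 h2) a1
      exact ⟨by nlinarith, abs_le.2 ⟨by nlinarith, by nlinarith⟩⟩
    · rw [smoothTransition.zero_of_nonpos (x := t - 1) (by linarith)]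
      have := mul_nonneg (by linarith : 0 ≤ 2 + t) a3
      exact ⟨by nlinarith, abs_le.2 ⟨by nlinarith, by nlinarith⟩⟩
  have b : ∀ t, |μ t| ≤ 2 ∧ min (t ^ 2) 1 ≤ μ t ^ 2 := fun t => by
    rcases le_total t (-2) with h | h
    · exact ⟨by simp [m2 t h], (min_le_right _ _).trans (by rw [m2 t h]; norm_num)⟩
    · rcases le_total 2 t with h' | h'
      · exact ⟨by simp [m1 t h'], (min_le_right _ _).trans (by rw [m1 t h']; norm_num)⟩
      · exact ⟨(m3 t (abs_le.2 ⟨h, h'⟩)).2, (min_le_left _ _).trans (m3 t (abs_le.2 ⟨h, h'⟩)).1⟩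
  have p : ∀ t, 1 / 32 ≤ (4 + μ t) / 64 ∧ (4 + μ t) / 64 ≤ 3 / 32 := fun t => by
    constructor <;> linarith [abs_le.1 (b t).1]
  have e : ∀ t, 64 * √((4 + μ t) / 64) ^ 2 = 4 + μ t := fun t => by
    rw [sq_sqrt (by linarith [p t])]; ring
  have s' : ContDiff ℝ ∞ fun t => √((4 + μ t) / 64) :=
    ((contDiff_const.add s).div_const _).sqrt fun t => by linarith [p t]
  obtain ⟨A, hA⟩ := isCompact_Icc.exists_bound_of_continuousOn
    ((s'.continuous_deriv (by simp)).continuousOn (s := Icc (-2 : ℝ) 2))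
  refine ⟨_, max 1 A, le_max_left _ _, s', fun t => ⟨le_sqrt_of_sq_le (by linarith [p t]),
    sqrt_le_iff.2 ⟨by norm_num, by linarith [p t]⟩, ?_, by rw [e]; simpa using (b t).2⟩,
    fun t h => ?_⟩
  · by_cases h : |t| ≤ 2
    · exact (hA t (abs_le.1 h)).trans (le_max_right 1 A)
    · have : deriv (fun t => √((4 + μ t) / 64)) t = 0 := by
        rcases lt_abs.1 (not_le.1 h) with k | k
        · exact IsLocalMax.deriv_eq_zero (.of_forall fun u => sqrt_le_sqrt (by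
            rw [m1 t k.le]; linarith [abs_le.1 (b u).1]))
        · exact IsLocalMin.deriv_eq_zero (.of_forall fun u => sqrt_le_sqrt (by
            rw [m2 t (by linarith)]; linarith [abs_le.1 (b u).1]))
      rw [this, abs_zero]
      positivity
  · obtain ⟨h1, h2⟩ := abs_le.1 h
    rw [e]
    simp only [hμ]
    rw [smoothTransition.zero_of_nonpos (by linarith), smoothTransition.zero_of_nonpos (by linarith)]
    ring

variable {n q : ℕ} {M : Type}

/-- the map whose zero set is the preimage of a circle through the origin -/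
def crc (G : Fin (q + 2) → M → ℝ) : Fin (q + 1) → M → ℝ :=
  Fin.cons (fun x => 64 * ((G 0 x - 1 / 4) ^ 2 + G 1 x ^ 2) - 4) fun j x => 64 * G j.succ.succ x

/-- the new map -/
def unc (φ : ℝ → ℝ) (G : Fin (q + 2) → M → ℝ) (H : Fin (q + 1) → M → ℝ) : Fin (q + 2) → M → ℝ :=
  Fin.cons (fun x => 1 / 4 + (G 0 x - 1 / 4) * (φ (H 0 x) / φ (crc G 0 x)))
    (Fin.cons (fun x => G 1 x * (φ (H 0 x) / φ (crc G 0 x))) fun j x => H j.succ x / 64)

variable {G : Fin (q + 2) → M → ℝ} {H : Fin (q + 1) → M → ℝ} {x : M} {φ : ℝ → ℝ}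

theorem nsq_ge' {m : ℕ} (G : Fin m → M → ℝ) (x : M) (i : Fin m) : G i x ^ 2 ≤ nsq G x :=
  Finset.single_le_sum (f := fun i => G i x ^ 2) (fun _ _ => sq_nonneg _) (Finset.mem_univ i)

theorem nsq_two (G : Fin (q + 2) → M → ℝ) (x : M) :
    nsq G x = G 0 x ^ 2 + G 1 x ^ 2 + ∑ j : Fin q, G j.succ.succ x ^ 2 := by
  simp only [nsq, Fin.sum_univ_succ, Fin.succ_zero_eq_one, add_assoc]

theorem nsq_crc (G : Fin (q + 2) → M → ℝ) (x : M) : nsq (crc G) x =
    (64 * ((G 0 x - 1 / 4) ^ 2 + G 1 x ^ 2) - 4) ^ 2 + 64 ^ 2 * ∑ j : Fin q, G j.succ.succ x ^ 2 := by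
  simp only [nsq, crc, Fin.sum_univ_succ, Fin.cons_zero, Fin.cons_succ, mul_pow, Finset.mul_sum]

theorem crc_small (h : nsq (crc G) x ≤ 4) :
    (G 0 x - 1 / 4) ^ 2 + G 1 x ^ 2 ≤ 3 / 32 ∧ nsq G x ≤ 1 / 2 := by
  rw [nsq_crc] at h
  have s : 0 ≤ ∑ j : Fin q, G j.succ.succ x ^ 2 := by positivity
  have h1 : (G 0 x - 1 / 4) ^ 2 + G 1 x ^ 2 ≤ 3 / 32 := by nlinarith
  rw [nsq_two]
  exact ⟨h1, by nlinarith [sq_nonneg (G 0 x - 1 / 2), sq_nonneg (64 * ((G 0 x - 1 / 4) ^ 2 +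
    G 1 x ^ 2) - 4)]⟩

theorem crc_low {c : ℝ} (c1 : c ≤ 1) (h : c ≤ nsq (crc G) x) : c / 64 ^ 2 ≤ nsq G x := by
  rw [nsq_crc] at h
  rw [nsq_two]
  have s : 0 ≤ ∑ j : Fin q, G j.succ.succ x ^ 2 := by positivity
  rcases le_total (G 0 x ^ 2 + G 1 x ^ 2) (1 / 4) with k | k
  · have h2 : (G 0 x ^ 2 + G 1 x ^ 2 - G 0 x / 2) ^ 2 ≤ G 0 x ^ 2 + G 1 x ^ 2 := by
      nlinarith [sq_nonneg (G 0 x ^ 2 + G 1 x ^ 2 + G 0 x / 2), sq_nonneg (G 1 x),
        mul_nonneg (add_nonneg (sq_nonneg (G 0 x)) (sq_nonneg (G 1 x))) (sub_nonneg.2 k)]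
    nlinarith
  · linarith

theorem unc_eq (h0 : ∀ s, 1 / 8 ≤ φ s) (e : ∀ i, H i x = crc G i x) (i : Fin (q + 2)) :
    unc φ G H i x = G i x := by
  have p : φ (H 0 x) / φ (crc G 0 x) = 1 := by rw [e, div_self (by linarith [h0 (crc G 0 x)])]
  refine Fin.cases ?_ (fun j => Fin.cases ?_ (fun j => ?_) j) i
  · simp [unc, p]
  · simp [unc, p]
  · simp [unc, e, crc]

theorem crc_unc (h0 : ∀ s, 1 / 8 ≤ φ s) (h1 : ∀ s, |s| ≤ 1 → 64 * φ s ^ 2 = 4 + s)
    (h : nsq (crc G) x ≤ 1) : nsq (crc (unc φ G H)) x =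
      (64 * φ (H 0 x) ^ 2 - 4) ^ 2 + ∑ j : Fin q, H j.succ x ^ 2 := by
  have e := h1 _ (abs_le_one_iff_mul_self_le_one.2 (by
    have := (nsq_ge' (crc G) x 0).trans h
    nlinarith))
  have p : φ (crc G 0 x) ≠ 0 := by linarith [h0 (crc G 0 x)]
  have e' : (G 0 x - 1 / 4) ^ 2 + G 1 x ^ 2 = φ (crc G 0 x) ^ 2 := by
    simp only [crc, Fin.cons_zero] at e ⊢
    linarith
  rw [nsq_crc, Finset.mul_sum]
  congr 1
  · simp only [unc, Fin.cons_zero, Fin.cons_one, add_sub_cancel_left, mul_pow]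
    rw [← add_mul, e']
    field_simp
  · refine Finset.sum_congr rfl fun j _ => ?_
    simp only [unc, Fin.cons_succ]
    ring

variable [Mf0 n M] {g : Fld n M}

theorem sm_crc (h : ∀ i, Smooth (G i)) (i : Fin (q + 1)) : Smooth (crc G i) :=
  Fin.cases (CD.sub (CD.mul cd_const (CD.add (CD.pow (CD.sub (h 0) cd_const) 2) (CD.pow (h 1) 2)))
    cd_const) (fun _ => CD.mul cd_const (h _)) i

theorem gn_mul_le (hg : Met g) {u w : M → ℝ} (hu : Smooth u) (hw : Smooth w) :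
    gn g (fun y => u y * w y) x ≤ |w x| * gn g u x + |u x| * gn g w x := by
  have := P210Z.gn_lin3 hg (x := x) (F := fun y => u y * w y) (f := u) (h := w) (s := u) (a := w x)
    (b := u x) (c := 0) fun i => by rw [pd_mul (hu.diff _) (hw.diff _)]; ring
  simpa using this

theorem gn_crc (hg : Met g) (h : ∀ i, Smooth (G i)) (k : nsq (crc G) x ≤ 4) {l ε : ℝ} (l0 : 0 ≤ l)
    (b : ∀ i, l * gn g (G i) x ≤ ε) (i : Fin (q + 1)) : l * gn g (crc G i) x ≤ 128 * ε := by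
  have e0 : 0 ≤ ε := (mul_nonneg l0 (gn_nonneg _ _ _)).trans (b 0)
  refine Fin.cases ?_ (fun j => ?_) i
  · have h1 := P210Z.gn_lin3 hg (x := x) (F := crc G 0) (f := G 0) (h := G 1) (s := G 0)
      (a := 128 * (G 0 x - 1 / 4)) (b := 128 * G 1 x) (c := 0) fun i => by
        have s0 : Smooth fun y => G 0 y - 1 / 4 := CD.sub (h 0) cd_const
        simp only [crc, Fin.cons_zero]
        rw [pd_sub_const, pd_const_mul, pd_add (Smooth.diff (CD.pow s0 2) _)
          (Smooth.diff (CD.pow (h 1) 2) _), pd_pow (s0.diff _), pd_pow ((h 1).diff _), pd_sub_const]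
        push_cast
        ring
    have h2 := (crc_small k).1
    have h3 : |128 * (G 0 x - 1 / 4)| ≤ 64 := abs_le.2 ⟨by nlinarith, by nlinarith⟩
    have h4 : |128 * G 1 x| ≤ 64 := abs_le.2 ⟨by nlinarith, by nlinarith⟩
    have h5 := mul_le_mul_of_nonneg_right h3 (gn_nonneg g (G 0) x)
    have h6 := mul_le_mul_of_nonneg_right h4 (gn_nonneg g (G 1) x)
    rw [abs_zero, zero_mul, add_zero] at h1
    nlinarith [mul_le_mul_of_nonneg_left (h1.trans (add_le_add h5 h6)) l0, b 0, b 1]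
  · rw [gn_of_pd (u := crc G j.succ) (u' := G j.succ.succ) (s := 64) fun i => pd_const_mul _ i,
      abs_of_pos (by norm_num)]
    nlinarith [b j.succ.succ]

section

variable {D : ℝ} (hφ : ContDiff ℝ ∞ φ) (h0 : ∀ s, 1 / 8 ≤ φ s ∧ φ s ≤ 1 / 2 ∧ |deriv φ s| ≤ D)
  (hG : ∀ i, Smooth (G i)) (hH : ∀ i, Smooth (H i))
include hφ h0 hG hH

theorem sm_rat : Smooth fun x => φ (H 0 x) / φ (crc G 0 x) :=
  CD.div (hφ.compM (hH 0)) (hφ.compM (sm_crc hG 0)) fun x => by linarith [h0 (crc G 0 x)]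

theorem sm_unc (i : Fin (q + 2)) : Smooth (unc φ G H i) :=
  Fin.cases (CD.add cd_const (CD.mul (CD.sub (hG 0) cd_const) (sm_rat hφ h0 hG hH)))
    (fun j => Fin.cases (CD.mul (hG 1) (sm_rat hφ h0 hG hH)) (fun _ => CD.div_const (hH _) _) j) i

theorem gn_unc (hg : Met g) (k : nsq (crc G) x ≤ 4) {l ε : ℝ} (l0 : 0 ≤ l)
    (b : ∀ i, l * gn g (G i) x ≤ ε) (b' : ∀ i, l * gn g (H i) x ≤ 128 * ε) (i : Fin (q + 2)) :
    l * gn g (unc φ G H i) x ≤ (4 + 5120 * D) * ε := by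
  have e0 : 0 ≤ ε := (mul_nonneg l0 (gn_nonneg _ _ _)).trans (b 0)
  have D0 : 0 ≤ D := (abs_nonneg _).trans (h0 0).2.2
  obtain ⟨a1, a2, a3⟩ := h0 (H 0 x)
  obtain ⟨c1, c2, c3⟩ := h0 (crc G 0 x)
  have d := fun s => (hφ.differentiable (by simp) s).hasDerivAt
  have h1 := P210Z.gn_lin3 hg (x := x) (F := fun x => φ (H 0 x) / φ (crc G 0 x)) (f := H 0)
    (h := crc G 0) (s := H 0) (a := deriv φ (H 0 x) * (φ (crc G 0 x))⁻¹)
    (b := deriv φ (crc G 0 x) * -(φ (H 0 x) * (φ (crc G 0 x))⁻¹ ^ 2)) (c := 0) fun i => by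
      rw [pd_div (Smooth.diff (hφ.compM (hH 0)) _) (Smooth.diff (hφ.compM (sm_crc hG 0)) _)
        (by linarith), pd_comp (d _) ((hH 0).diff _), pd_comp (d _) ((sm_crc hG 0).diff _)]
      field_simp
      ring
  have i0 : 0 < (φ (crc G 0 x))⁻¹ := inv_pos.2 (by linarith)
  have i1 : (φ (crc G 0 x))⁻¹ ≤ 8 := inv_le_of_inv_le₀ (by norm_num) (by linarith)
  have h2 : |deriv φ (H 0 x) * (φ (crc G 0 x))⁻¹| ≤ D * 8 := by
    rw [abs_mul, abs_of_pos i0]
    gcongr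
  have h3 : |deriv φ (crc G 0 x) * -(φ (H 0 x) * (φ (crc G 0 x))⁻¹ ^ 2)| ≤ D * (1 / 2 * 8 ^ 2) := by
    rw [abs_mul, abs_neg, abs_of_pos (mul_pos (by linarith) (pow_pos i0 2))]
    gcongr
  have h4 : l * gn g (fun x => φ (H 0 x) / φ (crc G 0 x)) x ≤ 5120 * D * ε := by
    have h5 := mul_le_mul_of_nonneg_right h2 (gn_nonneg g (H 0) x)
    have h6 := mul_le_mul_of_nonneg_right h3 (gn_nonneg g (crc G 0) x)
    rw [abs_zero, zero_mul, add_zero] at h1
    nlinarith [mul_le_mul_of_nonneg_left (h1.trans (add_le_add h5 h6)) l0,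
      mul_le_mul_of_nonneg_left (b' 0) D0,
      mul_le_mul_of_nonneg_left (gn_crc hg hG k l0 b 0) D0]
  have h5 : |φ (H 0 x) / φ (crc G 0 x)| ≤ 4 := by
    rw [div_eq_mul_inv, abs_of_pos (mul_pos (by linarith) i0)]
    nlinarith
  have h6 := (crc_small k).1
  have key : ∀ u : M → ℝ, Smooth u → |u x| ≤ 1 → l * gn g u x ≤ ε →
      l * gn g (fun y => u y * (φ (H 0 y) / φ (crc G 0 y))) x ≤ (4 + 5120 * D) * ε :=
    fun u s u1 u2 => by
      have h7 := gn_mul_le (x := x) hg s (sm_rat hφ h0 hG hH)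
      have h8 := mul_le_mul_of_nonneg_right h5 (gn_nonneg g u x)
      have h9 := mul_le_mul_of_nonneg_right u1
        (gn_nonneg g (fun x => φ (H 0 x) / φ (crc G 0 x)) x)
      nlinarith [mul_le_mul_of_nonneg_left (h7.trans (add_le_add h8 h9)) l0]
  refine Fin.cases ?_ (fun j => Fin.cases ?_ (fun j => ?_) j) i
  · refine le_trans (le_of_eq ?_) (key (fun y => G 0 y - 1 / 4) (CD.sub (hG 0) cd_const)
      (abs_le.2 ⟨by nlinarith, by nlinarith⟩)
      (by rw [gn_of_pd_eq fun i => pd_sub_const _ i]; exact b 0))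
    exact congrArg _ (gn_of_pd_eq fun i => pd_const_add _ i)
  · exact key (G 1) (hG 1) (abs_le.2 ⟨by nlinarith, by nlinarith⟩) (b 1)
  · rw [gn_of_pd (u' := H j.succ) (s := 1 / 64) fun i => by
      simp only [unc, Fin.cons_succ, div_eq_mul_inv, pd_mul_const]; ring, abs_of_pos (by norm_num)]
    nlinarith [b' j.succ, mul_nonneg D0 e0]

end

theorem blq_succ {k : ℕ} (h : BLq k (q + 1)) : BLq k (q + 2) := by
  obtain ⟨C, C1, c, c0, H⟩ := h
  obtain ⟨φ, D, D1, hφ, h0, h1⟩ := exists_phi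
  have h0' := fun s => (⟨(h0 s).1, (h0 s).2.1, (h0 s).2.2.1⟩ :
    1 / 8 ≤ φ s ∧ φ s ≤ 1 / 2 ∧ |deriv φ s| ≤ D)
  have CD1 : 128 * C ≤ (4 + 5120 * D) * C := by nlinarith
  refine ⟨(4 + 5120 * D) * C, by linarith, min c 1 / 64 ^ 2, by positivity, fun a a0 η η0 => ?_⟩
  obtain ⟨ε₀, e0, H⟩ := H a a0 η η0
  refine ⟨ε₀ / 128, by positivity, fun ε ε0 ε1 M _ g v l G O b => ?_⟩
  have sub : K4 (crc G) O ⊆ K4 G O := fun x hx => ⟨hx.1, (crc_small hx.2).2.trans (by norm_num)⟩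
  have cn : Continuous (nsq (crc G)) := Smooth.cont (CD.sum fun i _ => CD.pow (sm_crc b.smG i) 2)
  have cK : IsCompact (K4 (crc G) O) := by
    have : K4 (crc G) O = K4 G O ∩ {x | nsq (crc G) x ≤ 4} :=
      Subset.antisymm (fun x hx => ⟨sub hx, hx.2⟩) fun x hx => ⟨hx.1.1, hx.2⟩
    exact this ▸ b.cpt.inter_right (isClosed_le cn continuous_const)
  obtain ⟨g', v', l', E, o⟩ := H (128 * ε) (by positivity) (by linarith) M g v l (crc G) O
    ⟨b.ok, sm_crc b.smG, b.opn, cK, fun x hx => ⟨(b.bd x (sub hx)).1,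
      (b.bd x (sub hx)).2.1.trans (by linarith),
      gn_crc b.ok.met b.smG hx.2 (b.ok.l0 x).le (b.bd x (sub hx)).2.2⟩⟩
  obtain ⟨k1, -, k3⟩ := o.rch.ok b.ok.met b.ok.cc (Up.rfl' g)
  have eq := fun x hx => unc_eq (x := x) (fun s => (h0 s).1) (o.eqG x hx)
  refine ⟨g', v', l', unc φ G E, o.rch.enl cK.isClosed sub (fun _ _ => le_rfl) fun x hx _ =>
    (b.val (by linarith)).le x hx, o.sml, o.l0, sm_unc hφ h0' b.smG o.smG,
    fun x hx => o.off x fun q => hx (sub q), fun x hx => eq x (hx.imp_right fun q => ?_),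
    fun x hx => crc_low (min_le_right _ _) ?_, fun x hx => ?_⟩
  · by_contra r
    linarith [(crc_small ((not_le.1 r).le.trans (by norm_num))).2]
  · rcases le_total (nsq (crc G) x) 1 with r | r
    · rw [crc_unc (fun s => (h0 s).1) h1 r]
      have p := o.low x hx
      have p1 := (h0 (E 0 x)).2.2.2
      have p2 : 0 ≤ ∑ j : Fin q, E j.succ x ^ 2 := by positivity
      rw [nsq, Fin.sum_univ_succ] at p
      rcases le_total (E 0 x ^ 2) 1 with r' | r'
      · rw [min_eq_left r'] at p1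
        linarith [min_le_left c 1]
      · rw [min_eq_right r'] at p1
        linarith [min_le_right c 1]
    · rw [nsq_crc]
      simp only [eq x (.inr r)]
      rw [← nsq_crc]
      exact (min_le_right _ _).trans r
  · obtain ⟨b1, b2, b3⟩ := b.bd x hx
    have l0 := b.ok.l0 x
    by_cases r : x ∈ K4 (crc G) O
    · obtain ⟨p1, p2, p3, p4⟩ := o.bd x r
      refine ⟨p1, p2.trans (by nlinarith), p3.trans (by nlinarith), fun i => ?_⟩
      rw [mul_assoc]
      refine gn_unc hφ h0' b.smG o.smG k1 r.2 (o.l0 x).le (fun i => ?_)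
        (fun i => (p4 i).trans_eq (by ring)) i
      exact (mul_le_mul p2 (k3.gn_le b.ok.met k1 _ x) (gn_nonneg _ _ _)
        ((o.l0 x).le.trans p2)).trans (by nlinarith [b3 i])
    · have s := o.rch.same
      have n := cK.isClosed.isOpen_compl.mem_nhds r
      have e1 : l' =ᶠ[𝓝 x] l := eventually_of_mem n o.off
      have e2 : ∀ i, unc φ G E i =ᶠ[𝓝 x] G i := fun i => eventually_of_mem n fun y hy =>
        eq y (by
          by_cases q : y ∈ O
          · exact .inr (le_trans (by norm_num) (not_le.1 fun p => hy ⟨q, p⟩).le)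
          · exact .inl q) i
      have e3 := (s.ev cK.isClosed r).1.symm
      have e4 : ε ≤ (4 + 5120 * D) * C * ε := by nlinarith
      refine ⟨?_, ?_, ?_, fun i => ?_⟩
      · rw [e1.self_of_nhds, ← s.Rv_eq cK.isClosed r]
        exact le_trans (by linarith) b1
      · rw [e1.self_of_nhds]
        nlinarith
      · exact (gn_of_ev e3 e1).trans_le (b2.trans e4)
      · rw [e1.self_of_nhds, gn_of_ev e3 (e2 i)]
        exact (b3 i).trans e4

/-- **the radial lemma for maps with `q ≥ k` components** -/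
theorem blq {k : ℕ} (h : BL (k + 1)) (hq : k + 1 ≤ q) : BLq (k + 1) q := by
  induction q, hq using Nat.le_induction with
  | base => exact h
  | succ q hq ih =>
    obtain ⟨q, rfl⟩ := Nat.exists_eq_add_of_le' (le_of_add_le_right hq)
    exact blq_succ ih

end Vale.Agent.P210K
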